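import Vale.Agent.P325.H111.K2.Stmts

/-!
# The high degree part of a sign function is controlled by the expected size of the gradient
-/

namespace Vale.Agent.P325.K2.H792

open Finset

theorem sg_sq (b : Bool) : sg b * sg b = 1 := by cases b <;> simp [sg]

theorem sg_not (b : Bool) : sg (!b) = - sg b := by cases b <;> simp [sg]

section

variable {ι : Type} [Fintype ι] [DecidableEq ι]

/-- The product of the signs of two bits. -/
def uu (x y : ι → Bool) (i : ι) : ℝ := sg (x i) * sg (y i)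

omit [Fintype ι] [DecidableEq ι] in
theorem uu_sq (x y : ι → Bool) (i : ι) : uu x y i * uu x y i = 1 := by
  have h1 := sg_sq (x i)
  have h2 := sg_sq (y i)
  calc uu x y i * uu x y i = (sg (x i) * sg (x i)) * (sg (y i) * sg (y i)) := by
        unfold uu; ring
    _ = 1 := by rw [h1, h2, one_mul]

/-- The kernel of the noise operator. -/
def WW (s : ℝ) (x y : ι → Bool) : ℝ := ∏ j, (1 + s * uu x y j)

/-- The stability. -/
noncomputable def Stab (f : (ι → Bool) → ℝ) (s : ℝ) : ℝ :=
  Ex fun x => Ex fun y => f x * f y * WW s x y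

theorem Stab_eq (f : (ι → Bool) → ℝ) (s : ℝ) :
    Stab f s = ∑ S : Finset ι, s ^ #S * fc f S ^ 2 := by
  have h1 : ∀ S : Finset ι, s ^ #S * fc f S ^ 2 =
      Ex fun x => Ex fun y => s ^ #S * ((f x * chi S x) * (f y * chi S y)) := by
    intro S
    rw [sq, fc, ← Ex_mul_const, ← Ex_const_mul]
    refine Ex_congr fun x => ?_
    rw [← Ex_const_mul, ← Ex_const_mul]
  rw [Finset.sum_congr rfl fun S _ => h1 S, ← Ex_sum]
  refine Ex_congr fun x => ?_
  rw [← Ex_sum]
  refine Ex_congr fun y => ?_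
  rw [WW, Finset.prod_one_add, Finset.mul_sum]
  refine Finset.sum_congr (by simp) fun S _ => ?_
  rw [Finset.prod_mul_distrib, Finset.prod_const]
  unfold uu chi
  rw [Finset.prod_mul_distrib]
  ring

/-- A sum over the cube of a product of functions of the coordinates. -/
theorem Ex_prod_fun (g : ι → Bool → ℝ) :
    (Ex fun y : ι → Bool => ∏ i, g i (y i)) = ∏ i, ((g i true + g i false) / 2) := by
  rw [Ex]
  have h1 := Finset.prod_univ_sum (fun _ : ι => (univ : Finset Bool)) g
  rw [Fintype.piFinset_univ] at h1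
  rw [← h1]
  rw [Finset.prod_div_distrib]
  simp [Fintype.card_bool]

theorem Ex_WW (s : ℝ) (x : ι → Bool) : (Ex fun y => WW s x y) = 1 := by
  have h := Ex_prod_fun (fun i b => 1 + s * (sg (x i) * sg b))
  unfold WW uu
  rw [h]
  refine Finset.prod_eq_one fun i _ => ?_
  cases x i <;> norm_num [sg] <;> ring

theorem Ex_WW_diag (s : ℝ) (x : ι → Bool) (i : ι) :
    (Ex fun y => WW s x y * ((uu x y i - s) * (uu x y i - s))) = 1 - s ^ 2 := by
  have h := Ex_prod_fun (fun l b => (1 + s * (sg (x l) * sg b)) *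
    (if l = i then (sg (x l) * sg b - s) * (sg (x l) * sg b - s) else 1))
  have h1 : ∀ y : ι → Bool, WW s x y * ((uu x y i - s) * (uu x y i - s)) =
      ∏ l, ((1 + s * (sg (x l) * sg (y l))) *
        (if l = i then (sg (x l) * sg (y l) - s) * (sg (x l) * sg (y l) - s) else 1)) := by
    intro y
    rw [Finset.prod_mul_distrib, Finset.prod_ite_eq' univ i]
    simp [WW, uu]
  rw [Ex_congr h1, h]
  rw [Finset.prod_eq_single i]
  · simp only [if_true]
    cases x i <;> simp [sg] <;> ring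
  · intro b _ hb
    simp only [if_neg hb]
    cases x b <;> norm_num [sg] <;> ring
  · intro h; exact absurd (mem_univ i) h

theorem Ex_WW_off (s : ℝ) (x : ι → Bool) {i j : ι} (hij : i ≠ j) :
    (Ex fun y => WW s x y * ((uu x y i - s) * (uu x y j - s))) = 0 := by
  have h := Ex_prod_fun (fun l b => (1 + s * (sg (x l) * sg b)) *
    ((if l = i then (sg (x l) * sg b - s) else 1) * (if l = j then (sg (x l) * sg b - s) else 1)))
  have h1 : ∀ y : ι → Bool, WW s x y * ((uu x y i - s) * (uu x y j - s)) =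
      ∏ l, ((1 + s * (sg (x l) * sg (y l))) *
        ((if l = i then (sg (x l) * sg (y l) - s) else 1) *
          (if l = j then (sg (x l) * sg (y l) - s) else 1))) := by
    intro y
    rw [Finset.prod_mul_distrib, Finset.prod_mul_distrib, Finset.prod_ite_eq' univ i,
      Finset.prod_ite_eq' univ j]
    simp [WW, uu]
  rw [Ex_congr h1, h]
  refine Finset.prod_eq_zero (mem_univ i) ?_
  simp only [if_true, if_neg hij]
  cases x i <;> simp [sg] <;> ring

omit [DecidableEq ι] in
theorem WW_nonneg {s : ℝ} (h0 : 0 ≤ s) (h1 : s ≤ 1) (x y : ι → Bool) : 0 ≤ WW s x y := by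
  refine Finset.prod_nonneg fun j _ => ?_
  unfold uu
  cases x j <;> cases y j <;> simp [sg] <;> linarith

/-- The second moment of a linear form. -/
theorem Ex_WW_sq (s : ℝ) (x : ι → Bool) (g : ι → ℝ) :
    (Ex fun y => WW s x y * (∑ i, g i * (uu x y i - s)) ^ 2) = (1 - s ^ 2) * ∑ i, g i ^ 2 := by
  have h1 : ∀ y, WW s x y * (∑ i, g i * (uu x y i - s)) ^ 2 =
      ∑ i, ∑ j, g i * g j * (WW s x y * ((uu x y i - s) * (uu x y j - s))) := by
    intro y
    rw [sq, Finset.sum_mul_sum, Finset.mul_sum]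
    refine Finset.sum_congr rfl fun i _ => ?_
    rw [Finset.mul_sum]
    refine Finset.sum_congr rfl fun j _ => ?_
    ring
  rw [Ex_congr h1, Ex_sum, Finset.mul_sum]
  refine Finset.sum_congr rfl fun i _ => ?_
  rw [Ex_sum, Finset.sum_eq_single i]
  · rw [Ex_const_mul, Ex_WW_diag]; ring
  · intro j _ hj
    rw [Ex_const_mul, Ex_WW_off s x (Ne.symm hj), mul_zero]
  · intro h; exact absurd (mem_univ i) h

theorem Ex_WW_abs {s : ℝ} (h0 : 0 ≤ s) (h1 : s ≤ 1) (x : ι → Bool) (g : ι → ℝ) :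
    (Ex fun y => WW s x y * |∑ i, g i * (uu x y i - s)|) ≤
      Real.sqrt (1 - s ^ 2) * Real.sqrt (∑ i, g i ^ 2) := by
  have hs : 0 ≤ 1 - s ^ 2 := by nlinarith
  set A := Ex fun y => WW s x y * |∑ i, g i * (uu x y i - s)| with hA
  set B := Ex fun y => WW s x y * (∑ i, g i * (uu x y i - s)) ^ 2 with hB
  have hA0 : 0 ≤ A := Ex_nonneg fun y => mul_nonneg (WW_nonneg h0 h1 x y) (abs_nonneg _)
  -- the second moment bounds the square of the first
  have h2 : A ^ 2 ≤ B := by
    have h3 : 0 ≤ Ex fun y => WW s x y * (|∑ i, g i * (uu x y i - s)| - A) ^ 2 :=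
      Ex_nonneg fun y => mul_nonneg (WW_nonneg h0 h1 x y) (sq_nonneg _)
    have h4 : (Ex fun y => WW s x y * (|∑ i, g i * (uu x y i - s)| - A) ^ 2) =
        B - 2 * A * A + A ^ 2 * 1 := by
      rw [← Ex_WW s x, ← Ex_const_mul (A ^ 2)]
      have h5 : 2 * A * A = Ex fun y => 2 * A * (WW s x y * |∑ i, g i * (uu x y i - s)|) := by
        rw [Ex_const_mul]
      rw [h5, hB, ← Ex_sub, ← Ex_add]
      refine Ex_congr fun y => ?_
      have h6 := sq_abs (∑ i, g i * (uu x y i - s))
      rw [← h6]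
      ring
    rw [h4] at h3
    nlinarith
  rw [hB, Ex_WW_sq] at h2
  rw [← Real.sqrt_mul hs]
  exact Real.le_sqrt_of_sq_le h2

/-- The factor `u i` times the product over the other coordinates. -/
theorem uu_mul_prod {s : ℝ} (hs : 1 - s ^ 2 ≠ 0) (x y : ι → Bool) (i : ι) :
    (∏ j ∈ univ.erase i, (1 + s * uu x y j)) * uu x y i =
      (1 - s ^ 2)⁻¹ * (WW s x y * (uu x y i - s)) := by
  have h1 : WW s x y = (1 + s * uu x y i) * ∏ j ∈ univ.erase i, (1 + s * uu x y j) :=
    (Finset.mul_prod_erase univ (fun j => 1 + s * uu x y j) (mem_univ i)).symm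
  have h2 := uu_sq x y i
  have h3 : (1 + s * uu x y i) * (uu x y i - s) = (1 - s ^ 2) * uu x y i := by
    linear_combination s * h2
  rw [h1]
  field_simp
  linear_combination (∏ j ∈ univ.erase i, (1 + s * uu x y j)) * (-h3)

omit [Fintype ι] in
theorem flp_flp (x : ι → Bool) (i : ι) : flp (flp x i) i = x := by
  unfold flp
  simp

omit [Fintype ι] in
theorem uu_flp_same (x y : ι → Bool) (i : ι) : uu (flp x i) y i = - uu x y i := by
  unfold uu flp
  rw [Function.update_self, sg_not]; ring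

omit [Fintype ι] in
theorem uu_flp_ne (x y : ι → Bool) {i j : ι} (h : j ≠ i) : uu (flp x i) y j = uu x y j := by
  unfold uu flp
  rw [Function.update_of_ne h]

/-- The involution which changes a bit. -/
def flpE (i : ι) : (ι → Bool) ≃ (ι → Bool) where
  toFun x := flp x i
  invFun x := flp x i
  left_inv x := flp_flp x i
  right_inv x := flp_flp x i

/-- The part of the function which is odd in a coordinate. -/
noncomputable def gg (f : (ι → Bool) → ℝ) (x : ι → Bool) (i : ι) : ℝ := (f x - f (flp x i)) / 2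

theorem Ex_gg (f : (ι → Bool) → ℝ) (y : ι → Bool) (s : ℝ) (i : ι) :
    (Ex fun x => f x * ((∏ j ∈ univ.erase i, (1 + s * uu x y j)) * uu x y i)) =
      Ex fun x => gg f x i * ((∏ j ∈ univ.erase i, (1 + s * uu x y j)) * uu x y i) := by
  have h1 := Ex_equiv (flpE i)
    (fun x => f (flp x i) * ((∏ j ∈ univ.erase i, (1 + s * uu x y j)) * uu x y i))
  have h2 : ∀ x, f (flp (flpE i x) i) * ((∏ j ∈ univ.erase i, (1 + s * uu (flpE i x) y j)) *
      uu (flpE i x) y i) = - (f x * ((∏ j ∈ univ.erase i, (1 + s * uu x y j)) * uu x y i)) := by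
    intro x
    have h3 : flpE i x = flp x i := rfl
    rw [h3, flp_flp, uu_flp_same]
    have h4 : ∏ j ∈ univ.erase i, (1 + s * uu (flp x i) y j) =
        ∏ j ∈ univ.erase i, (1 + s * uu x y j) :=
      Finset.prod_congr rfl fun j hj => by rw [uu_flp_ne x y (Finset.ne_of_mem_erase hj)]
    rw [h4]
    ring
  rw [Ex_congr h2, Ex_neg] at h1
  have h5 : (Ex fun x => gg f x i * ((∏ j ∈ univ.erase i, (1 + s * uu x y j)) * uu x y i)) =
      (1 / 2) * ((Ex fun x => f x * ((∏ j ∈ univ.erase i, (1 + s * uu x y j)) * uu x y i)) -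
      Ex fun x => f (flp x i) * ((∏ j ∈ univ.erase i, (1 + s * uu x y j)) * uu x y i)) := by
    rw [← Ex_sub, ← Ex_const_mul]
    refine Ex_congr fun x => ?_
    unfold gg
    ring
  rw [h5, ← h1]
  ring

theorem sum_gg_sq (f : (ι → Bool) → ℝ) (hf : IsSign f) (x : ι → Bool) :
    ∑ i, gg f x i ^ 2 = #(piv f x) := by
  classical
  rw [piv, ← Finset.sum_boole]
  refine Finset.sum_congr rfl fun i _ => ?_
  unfold gg
  rcases hf x with h | h <;> rcases hf (flp x i) with h' | h' <;> rw [h, h'] <;> norm_num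

/-- The derivative of the stability. -/
noncomputable def dStab (f : (ι → Bool) → ℝ) (s : ℝ) : ℝ :=
  Ex fun x => Ex fun y => f x * f y *
    ∑ i, (∏ j ∈ univ.erase i, (1 + s * uu x y j)) * uu x y i

theorem hasDerivAt_WW (x y : ι → Bool) (s : ℝ) :
    HasDerivAt (fun s => WW s x y) (∑ i, (∏ j ∈ univ.erase i, (1 + s * uu x y j)) * uu x y i) s := by
  have h := HasDerivAt.fun_finsetProd (u := (univ : Finset ι)) (f := fun j (s : ℝ) => 1 + s * uu x y j)
    (f' := fun j => uu x y j) (x := s) (fun j _ => by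
      have := ((hasDerivAt_id s).mul_const (uu x y j)).const_add 1
      simpa using this)
  simpa [smul_eq_mul, WW] using h

theorem hasDerivAt_Ex {α : Type} [Fintype α] (F : α → ℝ → ℝ) (F' : α → ℝ) (s : ℝ)
    (h : ∀ a, HasDerivAt (F a) (F' a) s) : HasDerivAt (fun s => Ex fun a => F a s) (Ex F') s := by
  unfold Ex
  exact (HasDerivAt.fun_sum fun a _ => h a).div_const _

theorem hasDerivAt_Stab (f : (ι → Bool) → ℝ) (s : ℝ) : HasDerivAt (Stab f) (dStab f s) s := by
  unfold Stab dStab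
  refine hasDerivAt_Ex _ _ s fun x => hasDerivAt_Ex _ _ s fun y => ?_
  exact (hasDerivAt_WW x y s).const_mul _

theorem dStab_le (f : (ι → Bool) → ℝ) (hf : IsSign f) {s : ℝ} (h0 : 0 ≤ s) (h1 : s < 1) :
    dStab f s ≤ (Ex fun x => Real.sqrt #(piv f x)) / Real.sqrt (1 - s) := by
  have hs : 0 < 1 - s ^ 2 := by nlinarith
  -- replace `f x` by its odd parts
  have e1 : dStab f s = Ex fun x => Ex fun y => f y *
      ∑ i, gg f x i * ((∏ j ∈ univ.erase i, (1 + s * uu x y j)) * uu x y i) := by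
    unfold dStab
    rw [Ex_comm]
    conv_rhs => rw [Ex_comm]
    refine Ex_congr fun y => ?_
    have h2 : ∀ x, f x * f y * ∑ i, (∏ j ∈ univ.erase i, (1 + s * uu x y j)) * uu x y i =
        f y * ∑ i, f x * ((∏ j ∈ univ.erase i, (1 + s * uu x y j)) * uu x y i) := by
      intro x
      rw [← Finset.mul_sum]
      ring
    rw [Ex_congr h2, Ex_const_mul, Ex_const_mul, Ex_sum, Ex_sum]
    rw [Finset.sum_congr rfl fun i _ => Ex_gg f y s i]
  rw [e1]
  have e2 : ∀ x, (Ex fun y => f y *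
      ∑ i, gg f x i * ((∏ j ∈ univ.erase i, (1 + s * uu x y j)) * uu x y i)) ≤
      Real.sqrt #(piv f x) / Real.sqrt (1 - s) := by
    intro x
    have h2 : ∀ y, f y * ∑ i, gg f x i * ((∏ j ∈ univ.erase i, (1 + s * uu x y j)) * uu x y i) ≤
        (1 - s ^ 2)⁻¹ * (WW s x y * |∑ i, gg f x i * (uu x y i - s)|) := by
      intro y
      have h3 : ∑ i, gg f x i * ((∏ j ∈ univ.erase i, (1 + s * uu x y j)) * uu x y i) =
          (1 - s ^ 2)⁻¹ * (WW s x y * ∑ i, gg f x i * (uu x y i - s)) := by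
        rw [Finset.mul_sum, Finset.mul_sum]
        refine Finset.sum_congr rfl fun i _ => ?_
        rw [uu_mul_prod hs.ne' x y i]
        ring
      rw [h3]
      have h4 : f y * ((1 - s ^ 2)⁻¹ * (WW s x y * ∑ i, gg f x i * (uu x y i - s))) =
          (1 - s ^ 2)⁻¹ * (WW s x y * (f y * ∑ i, gg f x i * (uu x y i - s))) := by ring
      rw [h4]
      refine mul_le_mul_of_nonneg_left (mul_le_mul_of_nonneg_left ?_ (WW_nonneg h0 h1.le x y))
        (inv_nonneg.2 hs.le)
      rcases hf y with h5 | h5 <;> rw [h5]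
      · rw [one_mul]; exact le_abs_self _
      · rw [neg_one_mul]; exact neg_le_abs _
    refine (Ex_mono h2).trans ?_
    rw [Ex_const_mul]
    have h3 := Ex_WW_abs h0 h1.le x (gg f x)
    rw [sum_gg_sq f hf x] at h3
    refine (mul_le_mul_of_nonneg_left h3 (inv_nonneg.2 hs.le)).trans ?_
    have h4 : 0 < Real.sqrt (1 - s ^ 2) := Real.sqrt_pos.2 hs
    have h5 : 0 < Real.sqrt (1 - s) := Real.sqrt_pos.2 (by linarith)
    have h6 : Real.sqrt (1 - s) ≤ Real.sqrt (1 - s ^ 2) := Real.sqrt_le_sqrt (by nlinarith)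
    have h7 : (1 - s ^ 2)⁻¹ * (Real.sqrt (1 - s ^ 2) * Real.sqrt #(piv f x)) =
        Real.sqrt #(piv f x) / Real.sqrt (1 - s ^ 2) := by
      have h8 : (1 - s ^ 2) = Real.sqrt (1 - s ^ 2) * Real.sqrt (1 - s ^ 2) :=
        (Real.mul_self_sqrt hs.le).symm
      rw [div_eq_inv_mul, ← mul_assoc]
      congr 1
      nth_rewrite 1 [h8]
      rw [mul_inv, mul_assoc, inv_mul_cancel₀ h4.ne', mul_one]
    rw [h7]
    exact div_le_div_of_nonneg_left (Real.sqrt_nonneg _) h5 h6
  refine (Ex_mono e2).trans (le_of_eq ?_)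
  simp only [div_eq_mul_inv]
  rw [Ex_mul_const]

theorem Stab_diff (f : (ι → Bool) → ℝ) (hf : IsSign f) {s : ℝ} (h0 : 0 ≤ s) (h1 : s ≤ 1) :
    Stab f 1 - Stab f s ≤ 2 * (Ex fun x => Real.sqrt #(piv f x)) * Real.sqrt (1 - s) := by
  set E := Ex fun x => Real.sqrt #(piv f x) with hE
  have hanti : AntitoneOn (fun t => Stab f t + 2 * E * Real.sqrt (1 - t)) (Set.Icc s 1) := by
    have hder : ∀ t ∈ interior (Set.Icc s 1), HasDerivAt
        (fun t => Stab f t + 2 * E * Real.sqrt (1 - t)) (dStab f t - E / Real.sqrt (1 - t)) t := by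
      intro t ht
      rw [interior_Icc] at ht
      have h2 : HasDerivAt (fun t : ℝ => Real.sqrt (1 - t)) (-1 / (2 * Real.sqrt (1 - t))) t := by
        have := ((hasDerivAt_id t).const_sub 1).sqrt (by simp only [id]; linarith [ht.2])
        simpa using this
      have h3 := (hasDerivAt_Stab f t).add (h2.const_mul (2 * E))
      have h4 : 0 < Real.sqrt (1 - t) := Real.sqrt_pos.2 (by linarith [ht.2])
      have h5 : dStab f t + 2 * E * (-1 / (2 * Real.sqrt (1 - t))) =
          dStab f t - E / Real.sqrt (1 - t) := by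
        field_simp
        ring
      rw [h5] at h3
      exact h3
    refine antitoneOn_of_deriv_nonpos (convex_Icc s 1) ?_ ?_ ?_
    · refine ContinuousOn.add ?_ ?_
      · exact fun t _ => (hasDerivAt_Stab f t).continuousAt.continuousWithinAt
      · exact (by fun_prop : Continuous fun t : ℝ => 2 * E * Real.sqrt (1 - t)).continuousOn
    · exact fun t ht => (hder t ht).differentiableAt.differentiableWithinAt
    · intro t ht
      rw [(hder t ht).deriv]
      rw [interior_Icc] at ht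
      linarith [dStab_le f hf (h0.trans ht.1.le) ht.2]
  have h2 := hanti ⟨le_refl s, h1⟩ ⟨h1, le_refl 1⟩ h1
  simp only [sub_self, Real.sqrt_zero, mul_zero, add_zero] at h2
  linarith

end

/-- Package F1a. -/
theorem tailThm : TailThm := by
  refine ⟨4, fun ι _ _ f hf k hk => ?_⟩
  set E := Ex fun x => Real.sqrt #(piv f x) with hE
  have hk0 : (0 : ℝ) < k := by exact_mod_cast hk
  have hk1 : (1 : ℝ) ≤ k := by exact_mod_cast hk
  have hs0 : (0 : ℝ) ≤ 1 - 1 / k := by
    rw [sub_nonneg, div_le_one hk0]; exact hk1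
  have hs1 : (1 : ℝ) - 1 / k ≤ 1 := by
    have : (0 : ℝ) ≤ 1 / k := by positivity
    linarith
  have h1 := Stab_diff f hf hs0 hs1
  rw [Stab_eq, Stab_eq, ← Finset.sum_sub_distrib] at h1
  have h2 : (1 / 2 : ℝ) * (∑ S : Finset ι, if k < #S then fc f S ^ 2 else 0) ≤
      ∑ S : Finset ι, ((1 : ℝ) ^ #S * fc f S ^ 2 - (1 - 1 / (k : ℝ)) ^ #S * fc f S ^ 2) := by
    rw [Finset.mul_sum]
    refine Finset.sum_le_sum fun S _ => ?_
    have h3 : (1 - 1 / (k : ℝ)) ^ #S ≤ 1 := pow_le_one₀ hs0 hs1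
    split_ifs with h
    · have h4 : (1 - 1 / (k : ℝ)) ^ #S ≤ (1 - 1 / (k : ℝ)) ^ k := pow_le_pow_of_le_one hs0 hs1 h.le
      have h5 : (1 - 1 / (k : ℝ)) ^ k ≤ Real.exp (-1) := by
        have h6 : 1 - 1 / (k : ℝ) ≤ Real.exp (-(1 / (k : ℝ))) := by
          have := Real.add_one_le_exp (-(1 / (k : ℝ)))
          linarith
        calc (1 - 1 / (k : ℝ)) ^ k ≤ Real.exp (-(1 / (k : ℝ))) ^ k := pow_le_pow_left₀ hs0 h6 k
          _ = Real.exp (-1) := by
            rw [← Real.exp_nat_mul]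
            congr 1
            field_simp
      have h7 : Real.exp (-1) ≤ 1 / 2 := by
        rw [Real.exp_neg, one_div]
        exact inv_anti₀ (by norm_num) (by linarith [Real.add_one_le_exp (1 : ℝ)])
      have h8 := sq_nonneg (fc f S)
      rw [one_pow, one_mul]
      nlinarith
    · rw [mul_zero, one_pow, one_mul, sub_nonneg]
      have h8 := sq_nonneg (fc f S)
      nlinarith
  have h3 : Real.sqrt (1 - (1 - 1 / (k : ℝ))) = 1 / Real.sqrt k := by
    rw [sub_sub_cancel, Real.sqrt_div zero_le_one, Real.sqrt_one]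
  rw [h3] at h1
  have h4 : 4 * E / Real.sqrt k = 2 * (2 * E * (1 / Real.sqrt k)) := by ring
  rw [h4]
  linarith

end Vale.Agent.P325.K2.H792
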